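import Vale.Agent.Lib.P047F.Defs

/-!
# P047F VI/Comp: block composition of Boolean functions
-/

open Finset

namespace P047F

variable {ι κ : Type} [Fintype ι] [DecidableEq ι] [Fintype κ] [DecidableEq κ]

/-- `f ∘ g` on disjoint blocks: `f (g(x^1), ..., g(x^n))`, where `true` codes the value `-1` -/
noncomputable def comp (f : (ι → Bool) → ℝ) (g : (κ → Bool) → ℝ) (x : ι × κ → Bool) : ℝ :=
  f (fun i => decide (g (fun j => x (i, j)) = -1))

theorem comp_isBool {f : (ι → Bool) → ℝ} {g : (κ → Bool) → ℝ} (hf : IsBool f) :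
    IsBool (comp f g) := by
  intro x
  exact hf _

/-- sign of a bit -/
noncomputable def comp_sg (b : Bool) : ℝ := if b then -1 else 1

theorem comp_chi_cast (T : Finset ι) (x : ι → Bool) : (chi T x : ℝ) = ∏ i ∈ T, comp_sg (x i) := by
  unfold chi comp_sg
  push_cast
  rfl

/-- Fourier inversion: `f x = Σ_T f^(T) χ_T(x)` -/
theorem fourier_inv (f : (ι → Bool) → ℝ) (x : ι → Bool) :
    f x = ∑ T : Finset ι, ((∑ y, f y * (chi T y : ℝ)) / 2 ^ Fintype.card ι) * (chi T x : ℝ) := by
  have h1 : ∀ y : ι → Bool, ∑ T : Finset ι, (chi T y : ℝ) * (chi T x : ℝ) =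
      if y = x then 2 ^ Fintype.card ι else 0 := by
    intro y
    have h2 : ∑ T : Finset ι, (chi T y : ℝ) * (chi T x : ℝ) =
        ∏ i : ι, (1 + comp_sg (y i) * comp_sg (x i)) := by
      rw [Finset.prod_one_add, Finset.powerset_univ]
      refine Finset.sum_congr rfl fun T _ => ?_
      rw [comp_chi_cast, comp_chi_cast, Finset.prod_mul_distrib]
    rw [h2]
    split_ifs with h
    · subst h
      rw [Finset.prod_congr rfl (g := fun _ => (2 : ℝ)) (fun i _ => ?_)]
      · rw [Finset.prod_const, Finset.card_univ]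
      · unfold comp_sg
        split_ifs <;> norm_num
    · obtain ⟨i, hi⟩ := Function.ne_iff.1 h
      refine Finset.prod_eq_zero (Finset.mem_univ i) ?_
      unfold comp_sg
      cases h3 : y i <;> cases h4 : x i <;> simp_all
  have h2 : ∑ T : Finset ι, ((∑ y, f y * (chi T y : ℝ)) / 2 ^ Fintype.card ι) * (chi T x : ℝ) =
      (∑ y, f y * ∑ T : Finset ι, (chi T y : ℝ) * (chi T x : ℝ)) / 2 ^ Fintype.card ι := by
    simp_rw [Finset.mul_sum]
    rw [Finset.sum_comm, Finset.sum_div]
    refine Finset.sum_congr rfl fun T _ => ?_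
    rw [div_mul_eq_mul_div, Finset.sum_mul]
    congr 1
    refine Finset.sum_congr rfl fun y _ => ?_
    ring
  rw [h2]
  simp_rw [h1]
  simp

/-- for Boolean `g`: `χ_T (g(x^1),...) = ∏_{l ∈ T} g(x^l)` -/
theorem chi_comp {g : (κ → Bool) → ℝ} (hg : IsBool g) (T : Finset ι) (x : ι × κ → Bool) :
    (chi T (fun i => decide (g (fun j => x (i, j)) = -1)) : ℝ) =
      ∏ l ∈ T, g (fun j => x (l, j)) := by
  rw [comp_chi_cast]
  refine Finset.prod_congr rfl fun l _ => ?_
  unfold comp_sg
  rcases hg (fun j => x (l, j)) with h | h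
  · rw [h]
    norm_num
  · rw [h]
    norm_num

/-- product formula: `Σ_x (∏_{l∈T} g(x^l)) χ_U(x) = ∏_l (if l ∈ T then Σ_y g y χ_{U_l} y else Σ_y χ_{U_l} y)`,
`U_l = {j | (l,j) ∈ U}` -/
theorem sum_prod_comp (g : (κ → Bool) → ℝ) (T : Finset ι) (U : Finset (ι × κ)) :
    ∑ x : ι × κ → Bool, (∏ l ∈ T, g (fun j => x (l, j))) * (chi U x : ℝ) =
      ∏ l : ι, (∑ y : κ → Bool, (if l ∈ T then g y else 1) *
        (chi (Finset.univ.filter (fun j => (l, j) ∈ U)) y : ℝ)) := by
  rw [Finset.prod_univ_sum, Fintype.piFinset_univ]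
  refine Fintype.sum_equiv (Equiv.curry ι κ Bool) _ _ fun x => ?_
  rw [Finset.prod_mul_distrib]
  congr 1
  · rw [Finset.prod_ite_mem, Finset.univ_inter]
    rfl
  · rw [comp_chi_cast]
    have h1 : ∏ p ∈ U, comp_sg (x p) = ∏ p : ι × κ, if p ∈ U then comp_sg (x p) else 1 := by
      rw [Finset.prod_ite_mem, Finset.univ_inter]
    rw [h1, Fintype.prod_prod_type]
    refine Finset.prod_congr rfl fun l _ => ?_
    rw [comp_chi_cast, Finset.prod_filter]
    rfl

theorem comp_expand {f : (ι → Bool) → ℝ} {g : (κ → Bool) → ℝ} (hg : IsBool g)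
    (U : Finset (ι × κ)) :
    ∑ x : ι × κ → Bool, comp f g x * (chi U x : ℝ) =
      ∑ T : Finset ι, ((∑ y, f y * (chi T y : ℝ)) / 2 ^ Fintype.card ι) *
        ∏ l : ι, (∑ y : κ → Bool, (if l ∈ T then g y else 1) *
        (chi (Finset.univ.filter (fun j => (l, j) ∈ U)) y : ℝ)) := by
  have h1 : ∀ x : ι × κ → Bool, comp f g x * (chi U x : ℝ) =
      ∑ T : Finset ι, ((∑ y, f y * (chi T y : ℝ)) / 2 ^ Fintype.card ι) *
        ((∏ l ∈ T, g (fun j => x (l, j))) * (chi U x : ℝ)) := by
    intro x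
    unfold comp
    rw [fourier_inv f, Finset.sum_mul]
    refine Finset.sum_congr rfl fun T _ => ?_
    rw [chi_comp hg, mul_assoc]
  simp_rw [h1]
  rw [Finset.sum_comm]
  refine Finset.sum_congr rfl fun T _ => ?_
  rw [← Finset.mul_sum, sum_prod_comp]

theorem comp_sum_chi (S : Finset κ) :
    ∑ y : κ → Bool, (chi S y : ℝ) = if S = ∅ then 2 ^ Fintype.card κ else 0 := by
  have h1 : ∀ y : κ → Bool, (chi S y : ℝ) = ∏ i : κ, if i ∈ S then comp_sg (y i) else 1 := by
    intro y
    rw [comp_chi_cast, Finset.prod_ite_mem, Finset.univ_inter]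
  simp_rw [h1]
  have h2 : ∑ y : κ → Bool, ∏ i : κ, (if i ∈ S then comp_sg (y i) else 1) =
      ∏ i : κ, ∑ c : Bool, (if i ∈ S then comp_sg c else 1) := by
    rw [Finset.prod_univ_sum, Fintype.piFinset_univ]
  rw [h2]
  split_ifs with h
  · subst h
    simp
  · obtain ⟨i, hi⟩ := Finset.nonempty_iff_ne_empty.2 h
    refine Finset.prod_eq_zero (Finset.mem_univ i) ?_
    simp [hi, comp_sg]

/-- degrees multiply -/
theorem comp_deg {a b : ℕ} {f : (ι → Bool) → ℝ} {g : (κ → Bool) → ℝ} (hg : IsBool g)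
    (ha : DegLe a f) (hb : DegLe b g) : DegLe (a * b) (comp f g) := by
  intro U hU
  rw [comp_expand hg]
  refine Finset.sum_eq_zero fun T _ => ?_
  by_cases hT : a < T.card
  · rw [ha T hT, zero_div, zero_mul]
  push Not at hT
  suffices h : ∏ l : ι, (∑ y : κ → Bool, (if l ∈ T then g y else 1) *
        (chi (Finset.univ.filter (fun j => (l, j) ∈ U)) y : ℝ)) = 0 by
    rw [h, mul_zero]
  by_contra hne
  rw [Finset.prod_eq_zero_iff] at hne
  push Not at hne
  have h1 : ∀ l, (Finset.univ.filter (fun j => (l, j) ∈ U)).card ≤ if l ∈ T then b else 0 := by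
    intro l
    have h2 := hne l (Finset.mem_univ l)
    split_ifs with h
    · by_contra hb'
      push Not at hb'
      apply h2
      simp only [h, if_true]
      exact hb _ hb'
    · simp only [h, if_false, one_mul] at h2
      rw [comp_sum_chi] at h2
      by_contra h3
      apply h2
      rw [if_neg]
      intro h4
      apply h3
      rw [h4]
      simp
  have h2 : U.card = ∑ l : ι, (Finset.univ.filter (fun j => (l, j) ∈ U)).card := by
    have h3 : U.card = ∑ p : ι × κ, if p ∈ U then 1 else 0 := by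
      simp
    rw [h3, Fintype.sum_prod_type]
    refine Finset.sum_congr rfl fun l _ => ?_
    rw [Finset.card_filter]
  have h3 : U.card ≤ T.card * b := by
    rw [h2]
    refine (Finset.sum_le_sum fun l _ => h1 l).trans ?_
    rw [Finset.sum_ite_mem, Finset.univ_inter, Finset.sum_const, smul_eq_mul]
  have h4 : T.card * b ≤ a * b := Nat.mul_le_mul_right b hT
  omega

/-- the composition of balanced functions is balanced -/
theorem comp_bal {f : (ι → Bool) → ℝ} {g : (κ → Bool) → ℝ} (hg : IsBool g)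
    (hf0 : ∑ x, f x = 0) (hg0 : ∑ y, g y = 0) : ∑ x, comp f g x = 0 := by
  have h1 : ∑ x, comp f g x = ∑ x : ι × κ → Bool, comp f g x * (chi ∅ x : ℝ) := by
    refine Finset.sum_congr rfl fun x _ => ?_
    simp [chi]
  rw [h1, comp_expand hg]
  refine Finset.sum_eq_zero fun T _ => ?_
  rcases T.eq_empty_or_nonempty with rfl | ⟨l, hl⟩
  · have h2 : ∑ y, f y * (chi ∅ y : ℝ) = 0 := by
      rw [← hf0]
      refine Finset.sum_congr rfl fun x _ => ?_
      simp [chi]
    rw [h2, zero_div, zero_mul]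
  · rw [Finset.prod_eq_zero (Finset.mem_univ l), mul_zero]
    simp [hl, chi, hg0]

/-- `S1` multiplies when the inner function is balanced -/
theorem comp_S1 {f : (ι → Bool) → ℝ} {g : (κ → Bool) → ℝ} (hg : IsBool g)
    (hg0 : ∑ y, g y = 0) : S1 (comp f g) = S1 f * S1 g := by
  have key : ∀ (l : ι) (j : κ), ∑ x : ι × κ → Bool, comp f g x * (chi {(l, j)} x : ℝ) =
      ((∑ y, f y * (chi {l} y : ℝ)) / 2 ^ Fintype.card ι) *
        ((∑ y, g y * (chi {j} y : ℝ)) * (2 ^ Fintype.card κ) ^ (Fintype.card ι - 1)) := by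
    intro l j
    rw [comp_expand hg]
    have hUl : Finset.univ.filter (fun j' => (l, j') ∈ ({(l, j)} : Finset (ι × κ))) = {j} := by
      ext j'
      simp
    have hUl' : ∀ l', l' ≠ l →
        Finset.univ.filter (fun j' => (l', j') ∈ ({(l, j)} : Finset (ι × κ))) = ∅ := by
      intro l' hl'
      ext j'
      simp [hl']
    rw [Finset.sum_eq_single {l}]
    · congr 1
      rw [← Finset.mul_prod_erase _ _ (Finset.mem_univ l)]
      congr 1
      · rw [hUl]
        simp
      · rw [Finset.prod_congr rfl (g := fun _ => (2 : ℝ) ^ Fintype.card κ) (fun l' hl' => ?_)]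
        · rw [Finset.prod_const, Finset.card_erase_of_mem (Finset.mem_univ l), Finset.card_univ]
        · have hne : l' ≠ l := Finset.ne_of_mem_erase hl'
          rw [hUl' l' hne]
          simp [hne, chi]
    · intro T _ hT
      suffices h : ∏ l' : ι, (∑ y : κ → Bool, (if l' ∈ T then g y else 1) *
        (chi (Finset.univ.filter (fun j' => (l', j') ∈ ({(l, j)} : Finset (ι × κ)))) y : ℝ)) = 0 by
        rw [h, mul_zero]
      by_cases hlT : l ∈ T
      · have h2 : ∃ l' ∈ T, l' ≠ l := by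
          by_contra h3
          push Not at h3
          apply hT
          ext l'
          rw [Finset.mem_singleton]
          exact ⟨fun h => h3 l' h, fun h => h ▸ hlT⟩
        obtain ⟨l', hl'T, hne⟩ := h2
        refine Finset.prod_eq_zero (Finset.mem_univ l') ?_
        rw [hUl' l' hne]
        simp [hl'T, chi, hg0]
      · refine Finset.prod_eq_zero (Finset.mem_univ l) ?_
        rw [hUl]
        simp only [hlT, if_false, one_mul]
        rw [comp_sum_chi, if_neg (Finset.singleton_ne_empty j)]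
    · intro h
      exact absurd (Finset.mem_univ _) h
  have e1 : ∀ {α : Type} [Fintype α] [DecidableEq α] (h : (α → Bool) → ℝ),
      S1 h = (∑ i : α, ∑ x, h x * (chi {i} x : ℝ)) / 2 ^ Fintype.card α := by
    intro α _ _ h
    unfold S1
    simp_rw [Finset.mul_sum]
    rw [Finset.sum_comm]
  rcases isEmpty_or_nonempty ι with hι | hι
  · rw [e1, e1]
    simp
  have hcard : 1 ≤ Fintype.card ι := Fintype.card_pos
  rw [e1, e1, e1, Fintype.sum_prod_type]
  simp_rw [key]
  simp_rw [← Finset.mul_sum, ← Finset.sum_mul]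
  rw [Fintype.card_prod]
  have h2 : (2 : ℝ) ^ (Fintype.card ι * Fintype.card κ) =
      2 ^ Fintype.card κ * (2 ^ Fintype.card κ) ^ (Fintype.card ι - 1) := by
    rw [← pow_succ', Nat.sub_add_cancel hcard, ← pow_mul, mul_comm]
  rw [h2, ← Finset.sum_div]
  have h3 : (2 : ℝ) ^ Fintype.card κ ≠ 0 := by positivity
  have h4 : (2 : ℝ) ^ Fintype.card ι ≠ 0 := by positivity
  field_simp

end P047F
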