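import Vale.Agent.Lib.P047F.Defs

/-!
# P047F VI/Odd: making a Boolean function balanced with one more variable, and transport to `Fin n`
-/

open Finset

namespace P047F

variable {ι κ : Type} [Fintype ι] [DecidableEq ι] [Fintype κ] [DecidableEq κ]

/-- global negation as an equivalence -/
private def Odd_notE (ι : Type) : (ι → Bool) ≃ (ι → Bool) :=
  Function.Involutive.toPerm (fun x i => !(x i)) (fun x => by funext i; simp)

private theorem Odd_sum_not (G : (ι → Bool) → ℝ) :
    ∑ x : ι → Bool, G (fun i => !(x i)) = ∑ x, G x :=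
  Equiv.sum_comp (Odd_notE ι) G

private theorem Odd_chi_not (T : Finset ι) (x : ι → Bool) :
    (chi T (fun i => !(x i)) : ℝ) = (-1) ^ T.card * (chi T x : ℝ) := by
  unfold chi
  push_cast
  rw [← Finset.prod_const, ← Finset.prod_mul_distrib]
  refine Finset.prod_congr rfl fun i _ => ?_
  cases x i <;> simp

private theorem Odd_chi1_not (i : ι) (x : ι → Bool) :
    (chi {i} (fun i => !(x i)) : ℝ) = - (chi {i} x : ℝ) := by
  rw [Odd_chi_not, Finset.card_singleton, pow_one, neg_one_mul]

/-- `Σ f(-x) g(x) = Σ f(x) g(-x)` -/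
private theorem Odd_sum_swap (f g : (ι → Bool) → ℝ) :
    ∑ x : ι → Bool, f (fun i => !(x i)) * g x = ∑ x, f x * g (fun i => !(x i)) := by
  rw [← Odd_sum_not (fun x => f x * g (fun i => !(x i)))]
  refine Finset.sum_congr rfl fun x _ => ?_
  simp only [Bool.not_not]

private theorem Odd_deg_not {d : ℕ} {f : (ι → Bool) → ℝ} (hd : DegLe d f) (T : Finset ι)
    (hT : d < T.card) : ∑ x : ι → Bool, f (fun i => !(x i)) * (chi T x : ℝ) = 0 := by
  rw [Odd_sum_swap f (fun x => (chi T x : ℝ))]
  have h : ∀ x : ι → Bool, f x * (chi T (fun i => !(x i)) : ℝ) =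
      (-1) ^ T.card * (f x * (chi T x : ℝ)) := fun x => by
    rw [Odd_chi_not]; ring
  rw [Finset.sum_congr rfl fun x _ => h x, ← Finset.mul_sum, hd T hT, mul_zero]

private theorem Odd_S_not (f : (ι → Bool) → ℝ) :
    ∑ x : ι → Bool, f (fun i => !(x i)) * ∑ i : ι, (chi {i} x : ℝ) =
      - ∑ x : ι → Bool, f x * ∑ i : ι, (chi {i} x : ℝ) := by
  rw [Odd_sum_swap f (fun x => ∑ i : ι, (chi {i} x : ℝ)), ← Finset.sum_neg_distrib]
  refine Finset.sum_congr rfl fun x _ => ?_
  rw [Finset.sum_congr rfl fun i _ => Odd_chi1_not i x, Finset.sum_neg_distrib, mul_neg]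

/-- negation symmetry: `f'(x) = - f(-x)` has the same degree and `S1`, and the opposite mean -/
theorem neg_sym {d : ℕ} {f : (ι → Bool) → ℝ} (hb : IsBool f) (hd : DegLe d f) :
    ∃ f' : (ι → Bool) → ℝ, IsBool f' ∧ DegLe d f' ∧ S1 f' = S1 f ∧ ∑ x, f' x = - ∑ x, f x := by
  refine ⟨fun x => - f (fun i => !(x i)), fun x => ?_, fun T hT => ?_, ?_, ?_⟩
  · rcases hb (fun i => !(x i)) with h | h
    · exact Or.inr (by beta_reduce; rw [h])
    · exact Or.inl (by beta_reduce; rw [h]; norm_num)
  · simp only [neg_mul, Finset.sum_neg_distrib]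
    rw [Odd_deg_not hd T hT, neg_zero]
  · unfold S1
    simp only [neg_mul, Finset.sum_neg_distrib]
    rw [Odd_S_not, neg_neg]
  · rw [Finset.sum_neg_distrib, Odd_sum_not f]

/-- splitting a sum over the extra coordinate -/
private theorem Odd_split (G : (Option ι → Bool) → ℝ) :
    ∑ x, G x = ∑ y : ι → Bool, G (fun o => o.elim false y) +
      ∑ y : ι → Bool, G (fun o => o.elim true y) := by
  let e : (Bool × (ι → Bool)) ≃ (Option ι → Bool) :=
    { toFun := fun p o => o.elim p.1 p.2
      invFun := fun x => (x none, fun i => x (some i))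
      left_inv := fun p => rfl
      right_inv := fun x => by funext o; cases o <;> rfl }
  rw [← Equiv.sum_comp e G, Fintype.sum_prod_type, Fintype.sum_bool, add_comm]
  rfl

private theorem Odd_chi_opt (T : Finset (Option ι)) (b : Bool) (y : ι → Bool) :
    (chi T (fun o => o.elim b y) : ℝ) =
      (if none ∈ T then (if b then -1 else 1) else 1) * (chi T.eraseNone y : ℝ) := by
  have h : (∏ o ∈ T, (if (o.elim b y : Bool) then (-1 : ℝ) else 1)) =
      (if none ∈ T then (if b then -1 else 1) else 1) *
        ∏ i ∈ T.eraseNone, (if y i then (-1 : ℝ) else 1) := by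
    have h1 : ∏ i ∈ T.eraseNone, (if y i then (-1 : ℝ) else 1) =
        ∏ o ∈ T.eraseNone.map Function.Embedding.some,
          (if (o.elim b y : Bool) then (-1 : ℝ) else 1) := by
      rw [Finset.prod_map]
      rfl
    rw [h1, Finset.map_some_eraseNone]
    by_cases hn : none ∈ T
    · rw [if_pos hn, ← Finset.mul_prod_erase T _ hn]
      rfl
    · rw [if_neg hn, one_mul, Finset.erase_eq_of_notMem hn]
  unfold chi
  push_cast
  exact h

private theorem Odd_card (T : Finset (Option ι)) : T.card ≤ T.eraseNone.card + 1 := by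
  have h : (T.eraseNone.map Function.Embedding.some).card = T.eraseNone.card :=
    Finset.card_map _
  rw [Finset.map_some_eraseNone] at h
  have := Finset.pred_card_le_card_erase (s := T) (a := none)
  omega

private theorem Odd_sum_opt (b : Bool) (y : ι → Bool) :
    ∑ o : Option ι, (chi {o} (fun o : Option ι => o.elim b y) : ℝ) =
      (if b then -1 else 1) + ∑ i : ι, (chi {i} y : ℝ) := by
  rw [Fintype.sum_option]
  unfold chi
  simp only [Finset.prod_singleton, Option.elim_none, Option.elim_some]
  congr 1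
  cases b <;> simp

/-- if `E f ≥ 0`: `F(x,b) = b f(b x)` (`b = ±1` the extra variable `none`) is Boolean, balanced, of
degree `≤ d+1`, and `S1 F = S1 f + E f`.  (`χ_T(b x) = b^{|T|} χ_T(x)`.) -/
theorem odd_ext {d : ℕ} {f : (ι → Bool) → ℝ} (hb : IsBool f) (hd : DegLe d f) :
    ∃ F : (Option ι → Bool) → ℝ, IsBool F ∧ DegLe (d + 1) F ∧ ∑ x, F x = 0 ∧
      S1 F = S1 f + (∑ x, f x) / 2 ^ Fintype.card ι := by
  let F : (Option ι → Bool) → ℝ := fun x =>
    if x none then - f (fun i => !(x (some i))) else f (fun i => x (some i))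
  have hF0 : ∀ y : ι → Bool, F (fun o => o.elim false y) = f y := fun y => rfl
  have hF1 : ∀ y : ι → Bool, F (fun o => o.elim true y) = - f (fun i => !(y i)) := fun y => rfl
  refine ⟨F, fun x => ?_, fun T hT => ?_, ?_, ?_⟩
  · change (if x none then - f (fun i => !(x (some i))) else f (fun i => x (some i))) = 1 ∨
      (if x none then - f (fun i => !(x (some i))) else f (fun i => x (some i))) = -1
    cases x none
    · exact hb _
    · rcases hb (fun i => !(x (some i))) with h | h
      · exact Or.inr (by rw [h]; rfl)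
      · exact Or.inl (by rw [h]; norm_num)
  · have hc : d < T.eraseNone.card := by
      have := Odd_card T
      omega
    rw [Odd_split]
    have h0 : ∑ y : ι → Bool, F (fun o => o.elim false y) *
        (chi T (fun o => o.elim false y) : ℝ) = 0 := by
      have : ∀ y : ι → Bool, F (fun o => o.elim false y) *
        (chi T (fun o => o.elim false y) : ℝ) = f y * (chi T.eraseNone y : ℝ) := fun y => by
        rw [hF0, Odd_chi_opt]
        simp
      rw [Finset.sum_congr rfl fun y _ => this y, hd _ hc]
    have h1 : ∑ y : ι → Bool, F (fun o => o.elim true y) *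
        (chi T (fun o => o.elim true y) : ℝ) = 0 := by
      have : ∀ y : ι → Bool, F (fun o => o.elim true y) *
        (chi T (fun o => o.elim true y) : ℝ) =
          (-(if none ∈ T then -1 else 1)) * (f (fun i => !(y i)) * (chi T.eraseNone y : ℝ)) :=
        fun y => by
        rw [hF1, Odd_chi_opt]
        simp only [if_true]
        ring
      rw [Finset.sum_congr rfl fun y _ => this y, ← Finset.mul_sum, Odd_deg_not hd _ hc, mul_zero]
    rw [h0, h1, add_zero]
  · rw [Odd_split, Finset.sum_congr rfl fun y _ => hF0 y, Finset.sum_congr rfl fun y _ => hF1 y,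
      Finset.sum_neg_distrib, Odd_sum_not f, add_neg_cancel]
  · unfold S1
    rw [Odd_split]
    have h0 : ∑ y : ι → Bool, F (fun o => o.elim false y) *
        ∑ o : Option ι, (chi {o} (fun o : Option ι => o.elim false y) : ℝ) =
          ∑ y, f y + ∑ y : ι → Bool, f y * ∑ i : ι, (chi {i} y : ℝ) := by
      rw [← Finset.sum_add_distrib]
      refine Finset.sum_congr rfl fun y _ => ?_
      rw [hF0, Odd_sum_opt]
      simp only [Bool.false_eq_true, if_false]
      ring
    have h1 : ∑ y : ι → Bool, F (fun o => o.elim true y) *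
        ∑ o : Option ι, (chi {o} (fun o : Option ι => o.elim true y) : ℝ) =
          ∑ y, f y + ∑ y : ι → Bool, f y * ∑ i : ι, (chi {i} y : ℝ) := by
      have h2 := Odd_S_not f
      have h3 := Odd_sum_not f
      have h4 : ∀ y : ι → Bool, F (fun o => o.elim true y) *
          ∑ o : Option ι, (chi {o} (fun o : Option ι => o.elim true y) : ℝ) =
          f (fun i => !(y i)) - f (fun i => !(y i)) * ∑ i : ι, (chi {i} y : ℝ) := fun y => by
        rw [hF1, Odd_sum_opt]
        simp only [if_true]
        ring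
      rw [Finset.sum_congr rfl fun y _ => h4 y, Finset.sum_sub_distrib, h2, h3]
      ring
    rw [h0, h1, Fintype.card_option, pow_succ]
    have hp : (0 : ℝ) < 2 ^ Fintype.card ι := by positivity
    field_simp
    ring

/-- combination of the two -/
theorem exists_balanced {d : ℕ} {f : (ι → Bool) → ℝ} (hb : IsBool f) (hd : DegLe d f) :
    ∃ F : (Option ι → Bool) → ℝ, IsBool F ∧ DegLe (d + 1) F ∧ ∑ x, F x = 0 ∧ S1 f ≤ S1 F := by
  have hp : (0 : ℝ) < 2 ^ Fintype.card ι := by positivity
  rcases le_total 0 (∑ x, f x) with h | h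
  · obtain ⟨F, h1, h2, h3, h4⟩ := odd_ext hb hd
    refine ⟨F, h1, h2, h3, ?_⟩
    rw [h4]
    have := div_nonneg h hp.le
    linarith
  · obtain ⟨f', g1, g2, g3, g4⟩ := neg_sym hb hd
    obtain ⟨F, h1, h2, h3, h4⟩ := odd_ext g1 g2
    refine ⟨F, h1, h2, h3, ?_⟩
    rw [h4, g3, g4]
    have := div_nonneg (neg_nonneg.2 h) hp.le
    linarith

/-- transport along an equivalence of index types -/
theorem transport (e : ι ≃ κ) {d : ℕ} {f : (ι → Bool) → ℝ} (hb : IsBool f) (hd : DegLe d f) :
    ∃ f' : (κ → Bool) → ℝ, IsBool f' ∧ DegLe d f' ∧ S1 f' = S1 f ∧ ∑ x, f' x = ∑ x, f x := by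
  have hsum : ∀ G : (ι → Bool) → ℝ, ∑ y : κ → Bool, G (fun i => y (e i)) = ∑ x, G x := fun G =>
    Equiv.sum_comp (Equiv.arrowCongr e.symm (Equiv.refl Bool)) G
  have hchi : ∀ (T : Finset κ) (y : κ → Bool),
      chi T y = chi (T.map e.symm.toEmbedding) (fun i => y (e i)) := fun T y => by
    unfold chi
    rw [Finset.prod_map]
    refine Finset.prod_congr rfl fun k _ => ?_
    simp only [Equiv.coe_toEmbedding, Equiv.apply_symm_apply]
  refine ⟨fun y => f (fun i => y (e i)), fun y => hb _, fun T hT => ?_, ?_, hsum f⟩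
  · have h := hsum (fun x => f x * (chi (T.map e.symm.toEmbedding) x : ℝ))
    rw [hd _ (by rwa [Finset.card_map])] at h
    rw [← h]
    refine Finset.sum_congr rfl fun y _ => ?_
    rw [hchi T y]
  · unfold S1
    have h := hsum (fun x => f x * ∑ i : ι, (chi {i} x : ℝ))
    rw [← h, Fintype.card_congr e]
    congr 1
    refine Finset.sum_congr rfl fun y _ => ?_
    congr 1
    rw [← Equiv.sum_comp e]
    refine Finset.sum_congr rfl fun i _ => ?_
    unfold chi
    simp only [Finset.prod_singleton]

end P047F
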