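import Vale.Agent.Lib.P047F.Interface
import Vale.Agent.Lib.P047F.VI.Comp
import Vale.Agent.Lib.P047F.VI.Odd

/-!
# P047F Part VI: amplification
-/

open Finset

namespace P047F

/-- the one variable function -/
private noncomputable def VIMain_g0 (x : Fin 1 → Bool) : ℝ := (chi {0} x : ℝ)

private theorem VIMain_chi (x : Fin 1 → Bool) : (chi {0} x : ℝ) = if x 0 then -1 else 1 := by
  unfold chi
  rw [Finset.prod_singleton]
  split_ifs <;> simp

private theorem VIMain_sum (h : (Fin 1 → Bool) → ℝ) :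
    ∑ x, h x = h (fun _ => true) + h (fun _ => false) := by
  rw [← Equiv.sum_comp (Equiv.funUnique (Fin 1) Bool).symm h, Fintype.sum_bool]
  rfl

/-- `S1` is nonnegative powers: iterate `g_{k+1} = F ∘ g_k` starting with `g_0 = x` on one variable
(`Fin 1`); use `transport` with `Fintype.equivFin` to stay in `Fin n`. -/
theorem powers {n d : ℕ} {F : (Fin n → Bool) → ℝ} (hb : IsBool F) (hd : DegLe d F)
    (h0 : ∑ x, F x = 0) (k : ℕ) :
    ∃ (N : ℕ) (g : (Fin N → Bool) → ℝ), IsBool g ∧ DegLe (d ^ k) g ∧ ∑ x, g x = 0 ∧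
      S1 g = S1 F ^ k := by
  induction k with
  | zero =>
    refine ⟨1, VIMain_g0, fun x => ?_, fun T hT => ?_, ?_, ?_⟩
    · unfold VIMain_g0
      rw [VIMain_chi]
      split_ifs
      · exact Or.inr rfl
      · exact Or.inl rfl
    · exfalso
      have h1 := Finset.card_le_univ T
      rw [Fintype.card_fin] at h1
      rw [pow_zero] at hT
      omega
    · rw [VIMain_sum]
      unfold VIMain_g0
      rw [VIMain_chi, VIMain_chi]
      simp
    · unfold S1
      rw [VIMain_sum]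
      unfold VIMain_g0
      simp only [Fin.sum_univ_one, VIMain_chi]
      simp
  | succ k ih =>
    obtain ⟨N, g, hg, hdg, hg0, hS⟩ := ih
    obtain ⟨f', h1, h2, h3, h4⟩ := transport (finProdFinEquiv (m := n) (n := N))
      (comp_isBool (g := g) hb) (comp_deg hg hd hdg)
    refine ⟨n * N, f', h1, ?_, ?_, ?_⟩
    · rw [pow_succ']
      exact h2
    · rw [h4]
      exact comp_bal hg h0 hg0
    · rw [h3, comp_S1 hg hg0, hS, pow_succ']

/-- real analysis: if `D ≥ 1`, `√D < σ`, there are `c, K > 0` with: for every `d ≥ 1` there is `k` with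
`D^k ≤ d` and `K d^{1/2+c} ≤ σ^k`.  (If `D ≥ 2`: `c = log σ/log D - 1/2`, `k = Nat.log D d`, `K = 1/σ`.
If `D = 1`: `σ > 1`, `D^k = 1 ≤ d` for all `k`: take `c = 1`, `K = 1` and `k` large.) -/
theorem powers_real {D : ℕ} (hD : 1 ≤ D) {σ : ℝ} (hσ : Real.sqrt D < σ) :
    ∃ c : ℝ, 0 < c ∧ ∃ K : ℝ, 0 < K ∧ ∀ d : ℕ, 1 ≤ d → ∃ k : ℕ, D ^ k ≤ d ∧
      K * (d : ℝ) ^ (1 / 2 + c) ≤ σ ^ k := by
  have hD0 : (0 : ℝ) < D := by exact_mod_cast hD
  have hσ0 : 0 < σ := lt_of_le_of_lt (Real.sqrt_nonneg _) hσ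
  rcases Nat.eq_or_lt_of_le hD with h1 | h1
  · have hσ1 : 1 < σ := by
      rw [← h1] at hσ
      simpa using hσ
    refine ⟨1, one_pos, 1, one_pos, fun d hd => ?_⟩
    obtain ⟨k, hk⟩ := pow_unbounded_of_one_lt ((d : ℝ) ^ ((1 : ℝ) / 2 + 1)) hσ1
    refine ⟨k, ?_, ?_⟩
    · rw [← h1, one_pow]
      exact hd
    · rw [one_mul]
      exact hk.le
  · have hlD : 0 < Real.log D := Real.log_pos (by exact_mod_cast h1)
    have hls : Real.log D / 2 < Real.log σ := by
      rw [← Real.log_sqrt hD0.le]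
      exact Real.log_lt_log (Real.sqrt_pos.mpr hD0) hσ
    refine ⟨Real.log σ / Real.log D - 1 / 2, ?_, σ⁻¹, inv_pos.mpr hσ0, fun d hd => ?_⟩
    · rw [sub_pos, lt_div_iff₀ hlD]
      linarith
    · refine ⟨Nat.log D d, Nat.pow_log_le_self D (by omega), ?_⟩
      have hd0 : (0 : ℝ) < d := by exact_mod_cast hd
      have h2 : (d : ℝ) ≤ (D : ℝ) ^ (Nat.log D d + 1) := by
        exact_mod_cast (Nat.lt_pow_succ_log_self h1 d).le
      have h3 : (1 : ℝ) / 2 + (Real.log σ / Real.log D - 1 / 2) = Real.log σ / Real.log D := by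
        ring
      have h4 : 0 ≤ Real.log σ / Real.log D := div_nonneg (by linarith) hlD.le
      rw [h3]
      have h5 : (d : ℝ) ^ (Real.log σ / Real.log D) ≤ σ ^ (Nat.log D d + 1) := by
        refine (Real.rpow_le_rpow hd0.le h2 h4).trans (le_of_eq ?_)
        rw [← Real.rpow_natCast, ← Real.rpow_mul hD0.le, Real.rpow_def_of_pos hD0,
          ← Real.rpow_natCast σ, Real.rpow_def_of_pos hσ0]
        congr 1
        field_simp
      rw [inv_mul_le_iff₀ hσ0, ← pow_succ']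
      exact h5

theorem partVI : PartVI := by
  rintro ⟨n, d, f, hb, hd, hS⟩
  obtain ⟨F, hF1, hF2, hF3, hF4⟩ := exists_balanced hb hd
  obtain ⟨F', h1, h2, h3, h4⟩ := transport (Fintype.equivFin (Option (Fin n))) hF1 hF2
  have hσ : Real.sqrt ((d + 1 : ℕ) : ℝ) < S1 F' := by
    push_cast
    rw [h3]
    exact lt_of_lt_of_le hS hF4
  obtain ⟨c, hc, K, hK, hcK⟩ := powers_real (D := d + 1) (by omega) hσ
  refine ⟨c, hc, K, hK, fun d' hd' => ?_⟩
  obtain ⟨k, hk, hle⟩ := hcK d' hd'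
  obtain ⟨N, g, g1, g2, -, g4⟩ := powers h1 h2 (h4.trans hF3) k
  refine ⟨N, g, g1, fun T hT => g2 T (lt_of_le_of_lt hk hT), ?_⟩
  rw [g4]
  exact hle

end P047F
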